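import Vale.Agent.P301W13.T2
import Vale.Agent.P301Z.Lat.D11

/-!
# P301W (13): row D2, closed two-forms
-/

open scoped ComplexConjugate Matrix
open Vale.Agent.P272.K Vale.Agent.P299.IX Vale.Agent.P299.IX.Fock
open Vale.Agent.P281Z.Hg Vale.Agent.P301Z.Lat Vale.Agent.P301W

noncomputable section

namespace Vale.Agent.P301W13

variable {d : ℕ}

theorem lin_zero {c : Fin (d + d) → ℂ} (h : ∀ v : Cm d, ∑ l, cx v l * c l = 0) (p : Fin (d + d)) :
    c p = 0 := by
  rw [← cv_sum p c]
  simp only [h]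
  induction p using F1bH.idx <;> simp only [cv_hl, cv_ah] <;> ring

theorem tw_cv (c : Fin (d + d)) (N : Cm d → Mx (d + d)) :
    tw (Matrix.of fun p q => cv c fun x => N x p q) = fun K => cv c fun x => tw (N x) K := by
  induction c using F1bH.idx with
  | h j =>
    have h : (Matrix.of fun p q => cv (hl j) fun x => N x p q) =
        (2⁻¹ : ℂ) • (N (Pi.single j 1) + (-Complex.I) • N (Pi.single j Complex.I)) := by
      ext p q
      simp only [Matrix.of_apply, cv_hl, Matrix.smul_apply, Matrix.add_apply, smul_eq_mul]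
      ring
    rw [h, PwaX.tw_smul, PwaX.tw_add, PwaX.tw_smul]
    funext K
    simp only [cv_hl, Pi.smul_apply, Pi.add_apply, smul_eq_mul]
    ring
  | h' j =>
    have h : (Matrix.of fun p q => cv (ah j) fun x => N x p q) =
        (2⁻¹ : ℂ) • (N (Pi.single j 1) + Complex.I • N (Pi.single j Complex.I)) := by
      ext p q
      simp only [Matrix.of_apply, cv_ah, Matrix.smul_apply, Matrix.add_apply, smul_eq_mul]
      ring
    rw [h, PwaX.tw_smul, PwaX.tw_add, PwaX.tw_smul]
    funext K
    simp only [cv_ah, Pi.smul_apply, Pi.add_apply, smul_eq_mul]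
    ring

/-- the coefficients of a linear family of two-forms -/
def bc (A : Cm d →L[ℝ] Alt d 2) (c : Fin (d + d)) : Mx (d + d) :=
  Matrix.of fun p q => cv c fun x => cm (A x) p q

theorem bc_skew (A : Cm d →L[ℝ] Alt d 2) (c : Fin (d + d)) : (bc A c)ᵀ = -bc A c := by
  ext p q
  rw [Matrix.transpose_apply, Matrix.neg_apply, bc, Matrix.of_apply, Matrix.of_apply, ← cv_neg]
  congr 1
  funext x
  exact congrFun (congrFun (cm_skew (A x)) p) q

theorem Dv_t2 {a : Cm d → Alt d 2} {z : Cm d} (h : DifferentiableAt ℝ a z) (c : Fin (d + d)) :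
    Dv c (fun y => t2 (a y)) z = tw (bc (fderiv ℝ a z) c) := by
  rw [bc, tw_cv]
  funext K
  have h1 := (((ContinuousLinearMap.proj (R := ℝ) (φ := fun _ : FI (d + d) => ℂ) K).comp
    (T2L d)).hasFDerivAt.comp z h.hasFDerivAt).fderiv
  rw [Dv, dr_eq]
  exact congrArg (fun L : Cm d →L[ℝ] ℂ => cv c L) h1

theorem cm_expand (A : Cm d →L[ℝ] Alt d 2) (x : Cm d) (p q : Fin (d + d)) :
    cm (A x) p q = ∑ c, cx x c * bc A c p q := by
  refine expand (φ := fun x => cm (A x) p q) ⟨fun x y => ?_, fun c x => ?_⟩ x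
  · rw [map_add, cm_add, Matrix.add_apply]
  · rw [map_smul, cm_smul, Matrix.smul_apply, smul_eq_mul, Complex.real_smul]

theorem tri_expand (A : Cm d →L[ℝ] Alt d 2) (x u w : Cm d) :
    ((A x ![u, w] : ℝ) : ℂ) = ∑ c, ∑ p, ∑ q, cx x c * cx u p * cx w q * bc A c p q := by
  rw [expand2]
  simp only [cm_expand, Finset.mul_sum]
  rw [Finset.sum_congr rfl fun _ _ => Finset.sum_comm, Finset.sum_comm]
  exact Finset.sum_congr rfl fun c _ => Finset.sum_congr rfl fun p _ =>
    Finset.sum_congr rfl fun q _ => by ring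

theorem alt3 (A : Cm d →L[ℝ] Alt d 2) (x u w : Cm d) :
    ((ContinuousAlternatingMap.alternatizeUncurryFin A ![x, u, w] : ℝ) : ℂ) =
      ∑ c, cx x c * ∑ p, cx u p * ∑ q, cx w q * (bc A c p q - bc A p c q + bc A q c p) := by
  have h : ContinuousAlternatingMap.alternatizeUncurryFin A ![x, u, w] =
      A x ![u, w] - A u ![x, w] + A w ![x, u] := by
    rw [ContinuousAlternatingMap.alternatizeUncurryFin_apply, Fin.sum_univ_three]
    have e0 : (0 : Fin 3).removeNth ![x, u, w] = ![u, w] := by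
      funext i
      fin_cases i <;> rfl
    have e1 : (1 : Fin 3).removeNth ![x, u, w] = ![x, w] := by
      funext i
      fin_cases i <;> rfl
    have e2 : (2 : Fin 3).removeNth ![x, u, w] = ![x, u] := by
      funext i
      fin_cases i <;> rfl
    rw [e0, e1, e2]
    simp [sub_eq_add_neg]
  rw [h, Complex.ofReal_add, Complex.ofReal_sub, tri_expand, tri_expand, tri_expand,
    Finset.sum_comm (f := fun c p => ∑ q, cx u c * cx x p * cx w q * bc A c p q),
    Finset.sum_comm (f := fun c p => ∑ q, cx w c * cx x p * cx u q * bc A c p q),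
    Finset.sum_congr rfl fun p _ =>
      Finset.sum_comm (f := fun c q => cx w c * cx x p * cx u q * bc A c p q)]
  simp only [Finset.mul_sum, ← Finset.sum_sub_distrib, ← Finset.sum_add_distrib]
  exact Finset.sum_congr rfl fun c _ => Finset.sum_congr rfl fun p _ =>
    Finset.sum_congr rfl fun q _ => by ring

theorem e3_cyc {n : ℕ} (c p q : Fin n) :
    eps c *ᵥ PwaX.ee p q = eps p *ᵥ PwaX.ee q c := by
  rw [PwaX.ee_swap c q, Matrix.mulVec_neg, PwaX.ee, PwaX.ee, Matrix.mulVec_mulVec _ (eps c),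
    eps_eps, Matrix.neg_mulVec, ← Matrix.mulVec_mulVec]

theorem sum_zero {n : ℕ} (B : Fin n → Mx n) (h : ∀ c p q, B c p q + B p q c + B q c p = 0) :
    ∑ c, eps c *ᵥ tw (B c) = 0 := by
  have h1 : ∑ c, eps c *ᵥ tw (B c) = ∑ c, ∑ p, ∑ q, (B c p q / 2) • (eps c *ᵥ PwaX.ee p q) := by
    simp only [PwaX.tw_eq, Matrix.mulVec_sum, Matrix.mulVec_smul]
  have h2 : ∑ c, eps c *ᵥ tw (B c) = ∑ c, ∑ p, ∑ q, (B p q c / 2) • (eps c *ᵥ PwaX.ee p q) := by
    rw [h1, Finset.sum_congr rfl fun _ _ => Finset.sum_comm, Finset.sum_comm]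
    exact Finset.sum_congr rfl fun c _ => Finset.sum_congr rfl fun p _ =>
      Finset.sum_congr rfl fun q _ => by rw [e3_cyc c p q]
  have h3 : ∑ c, eps c *ᵥ tw (B c) = ∑ c, ∑ p, ∑ q, (B q c p / 2) • (eps c *ᵥ PwaX.ee p q) := by
    rw [h1, Finset.sum_comm, Finset.sum_congr rfl fun _ _ => Finset.sum_comm]
    exact Finset.sum_congr rfl fun c _ => Finset.sum_congr rfl fun p _ =>
      Finset.sum_congr rfl fun q _ => by rw [e3_cyc q c p]
  have h4 : (3 : ℂ) • ∑ c, eps c *ᵥ tw (B c) = 0 := by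
    rw [show (3 : ℂ) = 1 + 1 + 1 by norm_num, add_smul, add_smul, one_smul]
    conv_lhs => rw [h3]
    conv_lhs => enter [1, 1]; rw [← h3, h1]
    conv_lhs => enter [1, 2]; rw [← h3, h2]
    simp only [← Finset.sum_add_distrib, ← add_smul, ← add_div, h, zero_div, zero_smul,
      Finset.sum_const_zero]
  exact (smul_eq_zero.1 h4).resolve_left (by norm_num)

/-- **row D2** -/
theorem d2_row : D2 := by
  intro d a z h
  have h0 : dT (fun y => t2 (a y)) z = ∑ c, eps c *ᵥ tw (bc (fderiv ℝ a z) c) := by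
    simp only [dT, Dv_t2 h]
  rw [h0, extDeriv]
  generalize fderiv ℝ a z = A
  constructor
  · intro h1
    have h2 : ∀ c p q, bc A c p q - bc A p c q + bc A q c p = 0 := fun c p q => by
      have h3 := D11H.three c p q h1
      rw [← PwaX.mat_tw _ (bc_skew A c), ← PwaX.mat_tw _ (bc_skew A p),
        ← PwaX.mat_tw _ (bc_skew A q)]
      exact h3
    ext v
    have e : v = ![v 0, v 1, v 2] := by
      funext i
      fin_cases i <;> rfl
    rw [e, ContinuousAlternatingMap.coe_zero, Pi.zero_apply, ← Complex.ofReal_eq_zero, alt3]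
    simp only [h2, mul_zero, Finset.sum_const_zero]
  · intro h1
    refine sum_zero _ fun c p q => ?_
    have h2 : bc A c p q - bc A p c q + bc A q c p = 0 :=
      lin_zero (c := fun q => bc A c p q - bc A p c q + bc A q c p) (fun w =>
        lin_zero (c := fun p => ∑ q, cx w q * (bc A c p q - bc A p c q + bc A q c p)) (fun u =>
          lin_zero (c := fun c => ∑ p, cx u p *
            ∑ q, cx w q * (bc A c p q - bc A p c q + bc A q c p)) (fun x => by
              rw [← alt3, h1]
              rfl) c) p) q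
    have h3 : bc A p q c = -bc A p c q := congrFun (congrFun (bc_skew A p) c) q
    rw [h3, ← h2]
    ring

end Vale.Agent.P301W13
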