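import Vale.Agent.P301W13.F11

/-!
# P301W (13): row T2, the pointwise dictionary in degree two
-/

open scoped ComplexConjugate Matrix
open Vale.Agent.P272.K Vale.Agent.P299.IX Vale.Agent.P299.IX.Fock
open Vale.Agent.P281Z.Hg Vale.Agent.P301Z.Lat Vale.Agent.P301W

noncomputable section

namespace Vale.Agent.P301W13

variable {d : ℕ}

/-- the coordinates as real linear maps -/
def cxL (l : Fin (d + d)) : Cm d →L[ℝ] ℂ :=
  Fin.addCases (motive := fun _ => Cm d →L[ℝ] ℂ) (fun j => ContinuousLinearMap.proj j)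
    (fun j => (Complex.conjCLE : ℂ →L[ℝ] ℂ).comp (ContinuousLinearMap.proj j)) l

theorem cxL_apply (l : Fin (d + d)) (v : Cm d) : cxL l v = cx v l := by
  induction l using F1bH.idx with
  | h j =>
    rw [cx_hl]
    simp only [cxL, hl, Fin.addCases_left]
    rfl
  | h' j =>
    rw [cx_ah]
    simp only [cxL, ah, Fin.addCases_right]
    rfl

theorem cx_add (v w : Cm d) (l : Fin (d + d)) : cx (v + w) l = cx v l + cx w l := by
  rw [← cxL_apply, map_add, cxL_apply, cxL_apply]

theorem cx_smul (c : ℝ) (v : Cm d) (l : Fin (d + d)) : cx (c • v) l = c * cx v l := by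
  rw [← cxL_apply, map_smul, cxL_apply, Complex.real_smul]

/-- the bilinear form of a matrix -/
def gm (M : Mx (d + d)) (v w : Cm d) : ℂ := ∑ p, cx v p * ∑ q, cx w q * M p q

theorem gm_add_left (M : Mx (d + d)) (v v' w : Cm d) : gm M (v + v') w = gm M v w + gm M v' w := by
  simp only [gm, cx_add, add_mul, Finset.sum_add_distrib]

theorem gm_add_right (M : Mx (d + d)) (v w w' : Cm d) :
    gm M v (w + w') = gm M v w + gm M v w' := by
  simp only [gm, cx_add, add_mul, mul_add, Finset.sum_add_distrib]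

theorem gm_smul_left (M : Mx (d + d)) (c : ℝ) (v w : Cm d) : gm M (c • v) w = c * gm M v w := by
  simp only [gm, cx_smul, mul_assoc, ← Finset.mul_sum]

theorem gm_smul_right (M : Mx (d + d)) (c : ℝ) (v w : Cm d) : gm M v (c • w) = c * gm M v w := by
  simp only [gm, cx_smul, mul_assoc, ← Finset.mul_sum]
  rw [Finset.mul_sum]
  exact Finset.sum_congr rfl fun p _ => by ring

theorem gm_add (M M' : Mx (d + d)) (v w : Cm d) : gm (M + M') v w = gm M v w + gm M' v w := by
  simp only [gm, Matrix.add_apply, mul_add, Finset.sum_add_distrib]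

theorem gm_smul (c : ℂ) (M : Mx (d + d)) (v w : Cm d) : gm (c • M) v w = c * gm M v w := by
  simp only [gm, Matrix.smul_apply, smul_eq_mul, Finset.mul_sum]
  exact Finset.sum_congr rfl fun p _ => Finset.sum_congr rfl fun q _ => by ring

theorem gm_skew {M : Mx (d + d)} (h : Mᵀ = -M) (v w : Cm d) : gm M w v = -gm M v w := by
  simp only [gm, Finset.mul_sum]
  rw [Finset.sum_comm, ← Finset.sum_neg_distrib]
  refine Finset.sum_congr rfl fun p _ => ?_
  rw [← Finset.sum_neg_distrib]
  refine Finset.sum_congr rfl fun q _ => ?_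
  have h1 : M q p = -M p q := congrFun (congrFun h p) q
  rw [h1]
  ring

theorem gm_cont (M : Mx (d + d)) (i j : Fin 2) :
    Continuous fun v : Fin 2 → Cm d => gm M (v i) (v j) := by
  simp only [gm, ← cxL_apply]
  fun_prop

theorem bl_self (M : Mx (d + d)) : M = bl4 (Matrix.of fun i j => M (hl i) (hl j))
    (Matrix.of fun i j => M (hl i) (ah j)) (Matrix.of fun i j => M (ah i) (hl j))
    (Matrix.of fun i j => M (ah i) (ah j)) := by
  apply PwaX.bl_ext <;> intro i j <;>
    simp only [PwaX.bl_hh, PwaX.bl_ha, PwaX.bl_ah, PwaX.bl_aa, Matrix.of_apply]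

theorem gm_conj (M : Mx (d + d)) (v w : Cm d) :
    gm (swm d * M.map star * swm d) v w = conj (gm M v w) := by
  have h : swm d * M.map star * swm d = bl4 (Matrix.of fun i j => conj (M (ah i) (ah j)))
      (Matrix.of fun i j => conj (M (ah i) (hl j))) (Matrix.of fun i j => conj (M (hl i) (ah j)))
      (Matrix.of fun i j => conj (M (hl i) (hl j))) := by
    conv_lhs => rw [bl_self M]
    rw [PwaX.bl_star, show swm d = bl4 0 1 1 0 from rfl, PwaX.bl_mul, PwaX.bl_mul]
    simp only [zero_mul, one_mul, zero_add, add_zero, mul_zero, mul_one]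
    rfl
  rw [h]
  simp only [gm, sum_idx, PwaX.bl_hh, PwaX.bl_ha, PwaX.bl_ah, PwaX.bl_aa, Matrix.of_apply, cx_hl,
    cx_ah, map_add, map_sum, map_mul, Complex.conj_conj]
  rw [add_comm]
  congr 1 <;> exact Finset.sum_congr rfl fun p _ => by rw [add_comm]

/-- the real two-form of a matrix -/
def fa (M : Mx (d + d)) : Alt d 2 where
  toFun v := ((gm M (v 0) (v 1) - gm M (v 1) (v 0)) / 2).re
  map_update_add' v i x y := by
    rw [← Complex.add_re]
    congr 1
    fin_cases i <;> simp [gm_add_left, gm_add_right] <;> ring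
  map_update_smul' v i c x := by
    rw [smul_eq_mul, ← Complex.re_ofReal_mul]
    congr 1
    fin_cases i <;> simp [gm_smul_left, gm_smul_right] <;> ring
  cont := by
    exact Complex.continuous_re.comp (((gm_cont M 0 1).sub (gm_cont M 1 0)).div_const 2)
  map_eq_zero_of_eq' v i j h hij := by
    have h1 : v 0 = v 1 := by
      fin_cases i <;> fin_cases j
      · exact absurd rfl hij
      · exact h
      · exact h.symm
      · exact absurd rfl hij
    change ((gm M (v 0) (v 1) - gm M (v 1) (v 0)) / 2).re = 0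
    rw [h1, sub_self, zero_div, Complex.zero_re]

theorem fa_def (M : Mx (d + d)) (v : Fin 2 → Cm d) :
    fa M v = ((gm M (v 0) (v 1) - gm M (v 1) (v 0)) / 2).re := rfl

theorem fa_apply {M : Mx (d + d)} (h : Mᵀ = -M) (v w : Cm d) : fa M ![v, w] = (gm M v w).re := by
  have h1 : (gm M v w - gm M w v) / 2 = gm M v w := by
    rw [gm_skew h v w]
    ring
  rw [fa_def, Matrix.cons_val_zero, Matrix.cons_val_one, Matrix.cons_val_zero, h1]

theorem alt_ext {a b : Alt d 2} (h : ∀ v w, a ![v, w] = b ![v, w]) : a = b := by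
  ext v
  have e : v = ![v 0, v 1] := by
    funext i
    fin_cases i <;> rfl
  rw [e]
  exact h _ _

theorem expand_gm (a : Alt d 2) (u v : Cm d) : ((a ![u, v] : ℝ) : ℂ) = gm (cm a) u v :=
  expand2 a u v

theorem cm_eq' (a : Alt d 2) (M : Mx (d + d))
    (h : ∀ u v : Cm d, ((a ![u, v] : ℝ) : ℂ) = gm M u v) : cm a = M := cm_eq a M h

theorem cm_add (a b : Alt d 2) : cm (a + b) = cm a + cm b :=
  cm_eq' _ _ fun u v => by
    rw [gm_add, ← expand_gm, ← expand_gm, ContinuousAlternatingMap.add_apply, Complex.ofReal_add]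

theorem cm_smul (c : ℝ) (a : Alt d 2) : cm (c • a) = (c : ℂ) • cm a :=
  cm_eq' _ _ fun u v => by
    rw [gm_smul, ← expand_gm, ContinuousAlternatingMap.smul_apply, smul_eq_mul,
      Complex.ofReal_mul]

theorem cm_cont (p q : Fin (d + d)) : Continuous fun a : Alt d 2 => cm a p q := by
  have h : ∀ v : Fin 2 → Cm d, Continuous fun a : Alt d 2 => ((a v : ℝ) : ℂ) := fun v =>
    Complex.continuous_ofReal.comp (continuous_eval_const v)
  induction p using F1bH.idx <;> induction q using F1bH.idx <;>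
    simp only [cm, Matrix.of_apply, cv_hl, cv_ah] <;> fun_prop

/-- `t2` as a linear map -/
def T2L (d : ℕ) : Alt d 2 →L[ℝ] Fo d where
  toFun := t2
  map_add' a b := by rw [t2, cm_add, PwaX.tw_add]; rfl
  map_smul' c a := by
    rw [t2, cm_smul, PwaX.tw_smul, RingHom.id_apply, Complex.coe_smul]
    rfl
  cont := by
    change Continuous fun a : Alt d 2 => t2 a
    simp only [t2, PwaX.tw_eq]
    refine continuous_finsetSum _ fun p _ => continuous_finsetSum _ fun q _ => ?_
    exact ((cm_cont p q).div_const 2).smul continuous_const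

/-- the inverse -/
def F2L (d : ℕ) : Fo d →ₗ[ℝ] Alt d 2 where
  toFun u := fa (mat u)
  map_add' u u' := alt_ext fun v w => by
    rw [ContinuousAlternatingMap.add_apply, fa_apply (PwaX.mat_skew _), fa_apply (PwaX.mat_skew _),
      fa_apply (PwaX.mat_skew _), PwaX.mat_add, gm_add, Complex.add_re]
  map_smul' c u := alt_ext fun v w => by
    rw [ContinuousAlternatingMap.smul_apply, fa_apply (PwaX.mat_skew _),
      fa_apply (PwaX.mat_skew _), ← Complex.coe_smul, PwaX.mat_smul, gm_smul,
      Complex.re_ofReal_mul, RingHom.id_apply, smul_eq_mul]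

theorem dr_eq (p : Fin (d + d)) (f : Cm d → ℂ) (z : Cm d) : dr p f z = cv p (fderiv ℝ f z) := by
  induction p using F1bH.idx with
  | h j =>
    rw [cv_hl]
    simp only [dr, hl, Fin.addCases_left]
    rfl
  | h' j =>
    rw [cv_ah]
    simp only [dr, ah, Fin.addCases_right]
    rfl

theorem cx_fderiv {ψ : Cm d → Cm d} {z : Cm d} (h : DifferentiableAt ℝ ψ z) (v : Cm d)
    (l : Fin (d + d)) : cx (fderiv ℝ ψ z v) l = ∑ p, cx v p * jc ψ z p l := by
  have h1 : fderiv ℝ (fun y => cx (ψ y) l) z = (cxL l).comp (fderiv ℝ ψ z) := by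
    simp only [← cxL_apply]
    exact ((cxL l).hasFDerivAt.comp z h.hasFDerivAt).fderiv
  have h2 := expand (φ := fderiv ℝ (fun y => cx (ψ y) l) z)
    (fderiv ℝ (fun y => cx (ψ y) l) z).toLinearMap.isLinear v
  rw [← cxL_apply, ← ContinuousLinearMap.comp_apply, ← h1, h2]
  refine Finset.sum_congr rfl fun p _ => ?_
  rw [jc, Matrix.of_apply, dr_eq]

theorem gm_mul (J M : Mx (d + d)) {v w v' w' : Cm d} (hv : ∀ l, cx v' l = ∑ p, cx v p * J p l)
    (hw : ∀ l, cx w' l = ∑ p, cx w p * J p l) : gm M v' w' = gm (J * M * Jᵀ) v w := by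
  simp only [gm, hv, hw, Matrix.mul_apply, Matrix.transpose_apply, Finset.mul_sum, Finset.sum_mul]
  rw [Finset.sum_congr rfl fun _ _ => Finset.sum_congr rfl fun _ _ => Finset.sum_comm]
  rw [PwaX.sum4]
  refine Finset.sum_congr rfl fun p _ => Finset.sum_congr rfl fun q _ =>
    Finset.sum_congr rfl fun l _ => Finset.sum_congr rfl fun k _ => ?_
  ring

/-- **row T2** -/
theorem t2_row : T2 := by
  intro d
  refine ⟨⟨T2L d, fun _ => rfl⟩, ⟨LinearMap.toContinuousLinearMap (F2L d), fun a => ?_,
    fun u => ?_⟩, fun a => PwaX.dg_tw _, fun a => ?_, fun a ψ z h => ?_⟩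
  · refine alt_ext fun v w => ?_
    change fa (mat (tw (cm a))) ![v, w] = _
    rw [PwaX.mat_tw _ (cm_skew a), fa_apply (cm_skew a), ← expand_gm, Complex.ofReal_re]
  · change tw (cm (fa (mat u))) = _
    rw [← PwaX.tw_mat, PwaX.cjv_tw, ← PwaX.tw_add, ← PwaX.tw_smul]
    congr 1
    refine cm_eq' _ _ fun v w => ?_
    rw [fa_apply (PwaX.mat_skew u), gm_smul, gm_add, gm_conj, Complex.re_eq_add_conj]
    ring
  · rw [t2, PwaX.cjv_tw]
    congr 1
    refine (cm_eq' _ _ fun v w => ?_).symm
    rw [gm_conj, ← expand_gm, Complex.conj_ofReal]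
  · refine Eq.trans ?_ (PwaX.lr_tw (jc ψ z) (cm a)).symm
    rw [t2]
    congr 1
    refine cm_eq' _ _ fun v w => ?_
    rw [← gm_mul _ _ (cx_fderiv h v) (cx_fderiv h w), ← expand_gm,
      ContinuousAlternatingMap.compContinuousLinearMap_apply]
    congr 2
    funext i
    fin_cases i <;> rfl

end Vale.Agent.P301W13
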