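import Vale.Agent.P301W.Rows
import Vale.Agent.P301Z.Lat.Pwa

/-!
# P301W (13): row F11, real two-forms of type `(1,1)`
-/

open scoped ComplexConjugate Matrix
open Vale.Agent.P272.K Vale.Agent.P299.IX Vale.Agent.P299.IX.Fock
open Vale.Agent.P281Z.Hg Vale.Agent.P301Z.Lat Vale.Agent.P301W

noncomputable section

namespace Vale.Agent.P301W13

variable {d : ℕ}

theorem cv_hl (j : Fin d) (φ : Cm d → ℂ) : cv (hl j) φ =
    (φ (Pi.single j 1) - Complex.I * φ (Pi.single j Complex.I)) / 2 := by
  simp only [cv, hl, Fin.addCases_left]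

theorem cv_ah (j : Fin d) (φ : Cm d → ℂ) : cv (ah j) φ =
    (φ (Pi.single j 1) + Complex.I * φ (Pi.single j Complex.I)) / 2 := by
  simp only [cv, ah, Fin.addCases_right]

theorem cx_hl (j : Fin d) (v : Cm d) : cx v (hl j) = v j := by
  simp only [cx, hl, Fin.addCases_left]

theorem cx_ah (j : Fin d) (v : Cm d) : cx v (ah j) = conj (v j) := by
  simp only [cx, ah, Fin.addCases_right]
  rfl

theorem sum_idx (f : Fin (d + d) → ℂ) : ∑ p, f p = ∑ j, f (hl j) + ∑ j, f (ah j) :=
  Fin.sum_univ_add f

theorem cv_comm (p q : Fin (d + d)) (φ : Cm d → Cm d → ℂ) :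
    cv p (fun u => cv q fun v => φ u v) = cv q fun v => cv p fun u => φ u v := by
  induction p using F1bH.idx <;> induction q using F1bH.idx <;>
    simp only [cv_hl, cv_ah] <;> ring

theorem cv_neg (p : Fin (d + d)) (φ : Cm d → ℂ) : cv p (fun u => -φ u) = -cv p φ := by
  induction p using F1bH.idx <;> simp only [cv_hl, cv_ah] <;> ring

/-- `cv` reads the coefficients -/
theorem cv_sum (p : Fin (d + d)) (c : Fin (d + d) → ℂ) :
    cv p (fun v => ∑ l, cx v l * c l) = c p := by
  have h : ∀ (j : Fin d) (z : ℂ), ∑ l, cx (Pi.single j z : Cm d) l * c l =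
      z * c (hl j) + conj z * c (ah j) := by
    intro j z
    rw [sum_idx, Finset.sum_eq_single j, Finset.sum_eq_single j, cx_hl, cx_ah, Pi.single_eq_same]
    · intro k _ hk
      rw [cx_ah, Pi.single_eq_of_ne hk, map_zero, zero_mul]
    · intro h
      exact absurd (Finset.mem_univ j) h
    · intro k _ hk
      rw [cx_hl, Pi.single_eq_of_ne hk, zero_mul]
    · intro h
      exact absurd (Finset.mem_univ j) h
  induction p using F1bH.idx with
  | h j =>
    rw [cv_hl, h, h, map_one, Complex.conj_I]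
    linear_combination (-(c (hl j) - c (ah j)) / 2) * Complex.I_mul_I
  | h' j =>
    rw [cv_ah, h, h, map_one, Complex.conj_I]
    linear_combination ((c (hl j) - c (ah j)) / 2) * Complex.I_mul_I

/-- the expansion of a real linear function -/
theorem expand {φ : Cm d → ℂ} (h : IsLinearMap ℝ φ) (v : Cm d) :
    φ v = ∑ p, cx v p * cv p φ := by
  have hv : v = ∑ j, ((v j).re • (Pi.single j 1 : Cm d) +
      (v j).im • (Pi.single j Complex.I : Cm d)) := by
    funext k
    rw [Finset.sum_apply, Finset.sum_eq_single k]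
    · simp
    · intro j _ hj
      simp [Pi.single_eq_of_ne hj.symm]
    · intro h
      exact absurd (Finset.mem_univ k) h
  have h1 : φ v = ∑ j, ((v j).re • φ (Pi.single j 1) + (v j).im • φ (Pi.single j Complex.I)) := by
    conv_lhs => rw [hv]
    rw [← h.mk'_apply, map_sum]
    refine Finset.sum_congr rfl fun j _ => ?_
    rw [map_add, map_smul, map_smul]
    rfl
  rw [h1, sum_idx, ← Finset.sum_add_distrib]
  refine Finset.sum_congr rfl fun j _ => ?_
  rw [cx_hl, cx_ah, cv_hl, cv_ah, Complex.real_smul, Complex.real_smul, Complex.re_eq_add_conj,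
    Complex.im_eq_sub_conj]
  field_simp
  linear_combination ((v j - conj (v j)) * φ (Pi.single j Complex.I)) * Complex.I_mul_I

theorem alt_swap (a : Alt d 2) (u v : Cm d) : a ![v, u] = -a ![u, v] := by
  have h := a.toAlternatingMap.map_swap ![u, v] (i := 0) (j := 1) (by decide)
  have e : (![u, v] : Fin 2 → Cm d) ∘ Equiv.swap 0 1 = ![v, u] := by
    funext i
    fin_cases i <;> rfl
  rw [e] at h
  exact h

theorem lin_left (a : Alt d 2) (v : Cm d) :
    IsLinearMap ℝ fun u : Cm d => ((a ![u, v] : ℝ) : ℂ) where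
  map_add x y := by
    rw [← Complex.ofReal_add]
    exact congrArg _ (a.toAlternatingMap.map_vecCons_add ![v] x y)
  map_smul c x := by
    rw [Complex.real_smul, ← Complex.ofReal_mul]
    exact congrArg _ (a.toAlternatingMap.map_vecCons_smul ![v] c x)

theorem lin_right (a : Alt d 2) (u : Cm d) :
    IsLinearMap ℝ fun v : Cm d => ((a ![u, v] : ℝ) : ℂ) where
  map_add x y := by
    have h := (lin_left a u).map_add x y
    rw [alt_swap a (x + y) u, alt_swap a x u, alt_swap a y u]
    push_cast
    rw [h]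
    ring
  map_smul c x := by
    have h := (lin_left a u).map_smul c x
    rw [alt_swap a (c • x) u, alt_swap a x u]
    push_cast
    rw [h, smul_neg]

theorem cm_skew (a : Alt d 2) : (cm a)ᵀ = -cm a := by
  ext p q
  rw [Matrix.transpose_apply, Matrix.neg_apply, cm, Matrix.of_apply, Matrix.of_apply, cv_comm,
    ← cv_neg]
  congr 1
  funext u
  rw [← cv_neg]
  congr 1
  funext v
  rw [alt_swap a u v, Complex.ofReal_neg]

theorem cv_mul_sum (p : Fin (d + d)) (c : Fin (d + d) → ℂ) (φ : Fin (d + d) → Cm d → ℂ) :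
    cv p (fun u => ∑ q, c q * φ q u) = ∑ q, c q * cv p (φ q) := by
  induction p using F1bH.idx <;>
    simp only [cv_hl, cv_ah, Finset.mul_sum, ← Finset.sum_sub_distrib, ← Finset.sum_add_distrib,
      Finset.sum_div] <;>
    exact Finset.sum_congr rfl fun q _ => by ring

/-- the expansion of a real two-form -/
theorem expand2 (a : Alt d 2) (u v : Cm d) :
    ((a ![u, v] : ℝ) : ℂ) = ∑ p, cx u p * ∑ q, cx v q * cm a p q := by
  rw [expand (lin_left a v) u]
  refine Finset.sum_congr rfl fun p _ => ?_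
  congr 1
  have h : (fun u : Cm d => ((a ![u, v] : ℝ) : ℂ)) =
      fun u => ∑ q, cx v q * cv q fun v => ((a ![u, v] : ℝ) : ℂ) :=
    funext fun u => expand (lin_right a u) v
  rw [h, cv_mul_sum]
  rfl

/-- a matrix with the same expansion is `cm a` -/
theorem cm_eq (a : Alt d 2) (M : Mx (d + d))
    (h : ∀ u v : Cm d, ((a ![u, v] : ℝ) : ℂ) = ∑ p, cx u p * ∑ q, cx v q * M p q) : cm a = M := by
  ext p q
  rw [cm, Matrix.of_apply]
  have h1 : ∀ u : Cm d, (cv q fun v => ((a ![u, v] : ℝ) : ℂ)) = ∑ l, cx u l * M l q := by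
    intro u
    simp only [h]
    rw [cv_mul_sum]
    simp only [cv_sum]
  simp only [h1]
  exact cv_sum p fun l => M l q

theorem bl_sum (W : Mx d) (u v : Cm d) :
    ∑ p, cx u p * ∑ q, cx v q * bl4 0 (Complex.I • W) (-(Complex.I • W)ᵀ) 0 p q =
      Complex.I * ∑ j, ∑ k, W j k * (u j * conj (v k) - v j * conj (u k)) := by
  simp only [sum_idx, PwaX.bl_hh, PwaX.bl_ha, PwaX.bl_ah, PwaX.bl_aa, cx_hl, cx_ah,
    Matrix.zero_apply, mul_zero, Finset.sum_const_zero, zero_add, add_zero, Matrix.smul_apply,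
    Matrix.neg_apply, Matrix.transpose_apply, smul_eq_mul, Finset.mul_sum, mul_sub,
    Finset.sum_sub_distrib]
  rw [sub_eq_add_neg, ← Finset.sum_neg_distrib]
  congr 1
  · exact Finset.sum_congr rfl fun j _ => Finset.sum_congr rfl fun k _ => by ring
  · rw [Finset.sum_comm]
    refine Finset.sum_congr rfl fun j _ => ?_
    rw [← Finset.sum_neg_distrib]
    exact Finset.sum_congr rfl fun k _ => by ring

/-- **row F11** -/
theorem f11 : F11 := by
  intro d a W
  rw [PwaX.f11_tw]
  constructor
  · intro h u v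
    have h1 := congrArg mat h
    rw [t2, PwaX.mat_tw _ (cm_skew a), PwaX.mat_tw] at h1
    · rw [expand2, h1, bl_sum]
    · rw [PwaX.bl_tr, PwaX.bl_neg]
      simp
  · intro h
    rw [t2, cm_eq a _ fun u v => (h u v).trans (bl_sum W u v).symm]

end Vale.Agent.P301W13
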